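import Vale.Agent.P272.K.QN.H553.PW
import Vale.Agent.P272.K.QN.PWDefs
import Mathlib.MeasureTheory.Integral.IntervalIntegral.FundThmCalculus

/-! Block RED: `CertBlock n → PWBlock n`. -/

open Matrix MeasureTheory Set

set_option linter.all false

noncomputable section

namespace Vale.Agent.P272.K.QN.H553

open Vale.Agent.P272.K.QN

variable {n : ℕ}

lemma s_mul_Rr {η : Fin n → ℝ} (hη : ∀ k, 0 ≤ η k) {s : ℝ} (hs : 0 ≤ s) (a : Fin n)
    (u v : Fin n → ℝ) (h : u a = v a) : s * Rr η s a u v =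
      cc η s a * Fc (Finset.univ.erase a) (fun k => 1 - cc η s k) v u (1 - cc η s a) (u a) := by
  have hc := fun m => cc_eq hη hs m
  have e1 : ∑ m, u m * (1 - cc η s m) =
      ∑ k ∈ Finset.univ.erase a, (1 - cc η s k) * u k + (1 - cc η s a) * u a := by
    rw [← Finset.sum_erase_add _ _ (Finset.mem_univ a)]
    congr 1
    · exact Finset.sum_congr rfl fun m _ => by ring
    · ring
  have e2 : ∑ m, v m * (1 - cc η s m) =
      ∑ k ∈ Finset.univ.erase a, (1 - cc η s k) * v k + (1 - cc η s a) * u a := by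
    rw [← Finset.sum_erase_add _ _ (Finset.mem_univ a), h]
    congr 1
    · exact Finset.sum_congr rfl fun m _ => by ring
    · ring
  have e3 : ∑ m, v m * (cc η s m * (1 - cc η s m)) =
      ∑ k ∈ Finset.univ.erase a, (1 - cc η s k) * (1 - (1 - cc η s k)) * v k
        + (1 - cc η s a) * (1 - (1 - cc η s a)) * u a := by
    rw [← Finset.sum_erase_add _ _ (Finset.mem_univ a), h]
    congr 1
    · exact Finset.sum_congr rfl fun m _ => by ring
    · ring
  have e4 : ∑ m, ((u m - v m) ^ 2 * (cc η s m * (1 - cc η s m))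
      + 4 * (u m * v m) * (cc η s m ^ 2 * (1 - cc η s m))) =
      ∑ k ∈ Finset.univ.erase a, (1 - cc η s k) * (1 - (1 - cc η s k)) *
        (v k ^ 2 + u k ^ 2 + 2 * (1 - 2 * (1 - cc η s k)) * v k * u k)
        + 4 * u a ^ 2 * (cc η s a ^ 2 * (1 - cc η s a)) := by
    rw [← Finset.sum_erase_add _ _ (Finset.mem_univ a), ← h]
    congr 1
    · exact Finset.sum_congr rfl fun m _ => by ring
    · ring
  have f1 : s * ∑ m, u m * (η m * cc η s m) = ∑ m, u m * (1 - cc η s m) := by
    rw [Finset.mul_sum]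
    exact Finset.sum_congr rfl fun m _ => by rw [← hc m]; ring
  have f2 : s * ∑ m, v m * (η m * cc η s m) = ∑ m, v m * (1 - cc η s m) := by
    rw [Finset.mul_sum]
    exact Finset.sum_congr rfl fun m _ => by rw [← hc m]; ring
  have f3 : s * ∑ m, v m * (cc η s m * (η m * cc η s m)) =
      ∑ m, v m * (cc η s m * (1 - cc η s m)) := by
    rw [Finset.mul_sum]
    exact Finset.sum_congr rfl fun m _ => by rw [← hc m]; ring
  have f4 : s * ∑ m, ((u m - v m) ^ 2 * (cc η s m * (η m * cc η s m))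
      + 4 * (u m * v m) * (cc η s m ^ 2 * (η m * cc η s m))) =
      ∑ m, ((u m - v m) ^ 2 * (cc η s m * (1 - cc η s m))
      + 4 * (u m * v m) * (cc η s m ^ 2 * (1 - cc η s m))) := by
    rw [Finset.mul_sum]
    exact Finset.sum_congr rfl fun m _ => by rw [← hc m]; ring
  have f5 := hc a
  unfold Rr Fc
  rw [e1] at f1
  rw [e2] at f2
  rw [e3] at f3
  rw [e4] at f4
  generalize (∑ m, u m * (η m * cc η s m)) = U at f1 ⊢
  generalize (∑ m, v m * (η m * cc η s m)) = V at f2 ⊢
  generalize (∑ m, v m * (cc η s m * (η m * cc η s m))) = E at f3 ⊢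
  generalize (∑ m, ((u m - v m) ^ 2 * (cc η s m * (η m * cc η s m))
      + 4 * (u m * v m) * (cc η s m ^ 2 * (η m * cc η s m)))) = D at f4 ⊢
  generalize (∑ k ∈ Finset.univ.erase a, (1 - cc η s k) * u k) = U' at f1 ⊢
  generalize (∑ k ∈ Finset.univ.erase a, (1 - cc η s k) * v k) = V' at f2 ⊢
  generalize (∑ k ∈ Finset.univ.erase a, (1 - cc η s k) * (1 - (1 - cc η s k)) * v k) = E'
    at f3 ⊢
  generalize (∑ k ∈ Finset.univ.erase a, (1 - cc η s k) * (1 - (1 - cc η s k)) *
        (v k ^ 2 + u k ^ 2 + 2 * (1 - 2 * (1 - cc η s k)) * v k * u k)) = D' at f4 ⊢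
  generalize cc η s a = c at f1 f2 f3 f4 f5 ⊢
  have g1 : s * U = U' + (1 - c) * u a := f1
  have g2 : s * V = V' + (1 - c) * u a := f2
  have g3 : s * E = E' + (1 - c) * (1 - (1 - c)) * u a := f3
  rw [← g1, ← g2, ← g3]
  have g4 : D' = s * D - 4 * u a ^ 2 * (c ^ 2 * (1 - c)) := by rw [f4]; ring
  rw [g4]
  linear_combination (-2 * c ^ 3 * u a ^ 2) * f5

theorem certStmt_of (hC : CertBlock n) : CertStmt n := by
  intro η hη a u v h S hS
  obtain ⟨H, hH1, hH0, hH2, hH3⟩ := hC η hη a v u (u a)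
  choose! H' hH' using hH3
  have key := intervalIntegral.sub_le_integral_of_hasDeriv_right_of_le (a := 0) (b := S)
    (g := H) (g' := H') (φ := fun s => (∏ k, cc η s k) * Rr η s a u v) hS
    (fun s hs => (hH1 s hs.1).continuousWithinAt)
    (fun s hs => (hH' s hs.1).1.hasDerivWithinAt) ?_ ?_
  · rw [hH0] at key
    have := hH2 S hS
    linarith
  · refine ContinuousOn.integrableOn_Icc ?_
    exact (continuousOn_finset_prod _ fun k _ => continuousOn_cc hη S k).mul
      (continuousOn_Rr hη S a u v)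
  · intro s hs
    have h1 := (hH' s hs.1).2
    have h2 : (∏ k, cc η s k) * cc η s a *
          Fc (Finset.univ.erase a) (fun k => 1 - cc η s k) v u (1 - cc η s a) (u a) =
        s * ((∏ k, cc η s k) * Rr η s a u v) := by
      rw [mul_assoc, ← s_mul_Rr hη hs.1.le a u v h]; ring
    rw [h2] at h1
    exact le_of_mul_le_mul_left h1 hs.1

/-- **Block RED.** -/
theorem redBlock (n : ℕ) : RedBlock n := fun hC => pwBlock_of (certStmt_of hC)

end Vale.Agent.P272.K.QN.H553
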