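import Vale.Agent.P272.K.QN.H553.Cert
import Vale.Agent.P272.K.QN.H553.Bridge

/-! Block PW. -/

namespace Vale.Agent.P272.K.QN

/-- **Block PW.** -/
theorem pwBlock (n : ℕ) : PWBlock n := H553.redBlock n (H553.certBlock n)

end Vale.Agent.P272.K.QN
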