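import Vale.Agent.P272.K.QN.PWDefs
import Vale.Agent.P272.K.QN.H327.Scal
import Mathlib.Analysis.Calculus.Deriv.Inv
import Mathlib.Analysis.Calculus.Deriv.Pow
import Mathlib.Algebra.Order.BigOperators.Ring.Finset

/-! Block CERT (certificate of helper232). -/

open Matrix MeasureTheory Set

set_option linter.all false

noncomputable section

namespace Vale.Agent.P272.K.QN.H553

open Vale.Agent.P272.K.QN

section alg
variable {ι : Type*} (t : Finset ι) (q x y : ι → ℝ) (w y0 : ℝ)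

/-- the potential `P` -/
def Pc : ℝ := (∑ i ∈ t, q i * (y i ^ 2 + x i ^ 2 + 2 * y i * x i * (1 - q i)))
  + 2 * w * y0 ^ 2 + 2 * w * y0 * (∑ i ∈ t, x i * q i) + (∑ i ∈ t, x i * q i) ^ 2

/-- `s dP/ds` -/
def dPc : ℝ := (∑ i ∈ t, q i * (1 - q i) * (x i ^ 2 + y i ^ 2 + 2 * (1 - 2 * q i) * x i * y i))
  + 2 * (1 - w) * w * y0 ^ 2 + 2 * (1 - w) * w * y0 * (∑ i ∈ t, x i * q i)
  + 2 * w * y0 * (∑ i ∈ t, x i * (q i * (1 - q i)))
  + 2 * (∑ i ∈ t, x i * q i) * (∑ i ∈ t, x i * (q i * (1 - q i)))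

lemma Pc_nonneg (hq : ∀ i ∈ t, 0 ≤ q i) (hq1 : ∀ i ∈ t, q i ≤ 1) (hw : 0 ≤ w) (hw1 : w ≤ 1) :
    0 ≤ Pc t q x y w y0 := by
  have h1 : 0 ≤ ∑ i ∈ t, q i * (y i ^ 2 + x i ^ 2 + 2 * y i * x i * (1 - q i)) := by
    refine Finset.sum_nonneg fun i hi => mul_nonneg (hq i hi) ?_
    nlinarith [sq_nonneg (y i + x i * (1 - q i)), hq i hi, hq1 i hi, sq_nonneg (x i),
      mul_nonneg (mul_nonneg (hq i hi) (show 0 ≤ 2 - q i by linarith [hq1 i hi])) (sq_nonneg (x i))]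
  unfold Pc
  generalize (∑ i ∈ t, x i * q i) = γ
  nlinarith [mul_nonneg hw (sq_nonneg (y0 + γ)), mul_nonneg hw (sq_nonneg y0),
    mul_nonneg (show 0 ≤ 1 - w by linarith) (sq_nonneg γ)]

theorem cert_alg (hq : ∀ i ∈ t, 0 ≤ q i) (hq1 : ∀ i ∈ t, q i ≤ 1) (hw : 0 ≤ w) (hw1 : w ≤ 1) :
    -(∑ i ∈ t, q i + 2 * w) * Pc t q x y w y0 + dPc t q x y w y0 ≤ Fc t q x y w y0 := by
  set S := ∑ i ∈ t, q i with hS
  set γ := ∑ i ∈ t, x i * q i with hγ
  set β := ∑ i ∈ t, q i * y i with hβ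
  set γ' := ∑ i ∈ t, x i * (q i * (1 - q i)) with hγ'
  set A3 := ∑ i ∈ t, q i * (y i + x i * (1 - q i)) ^ 2 with hA3
  set A4 := ∑ i ∈ t, x i ^ 2 * q i ^ 2 * (2 - q i) with hA4
  have hA1 : ∑ i ∈ t, q i * (y i ^ 2 + x i ^ 2 + 2 * y i * x i * (1 - q i)) = A3 + A4 := by
    rw [hA3, hA4, ← Finset.sum_add_distrib]
    exact Finset.sum_congr rfl fun i _ => by ring
  have e1 : ∑ k ∈ t, q k * x k = γ := Finset.sum_congr rfl fun i _ => by ring
  have e2 : ∑ k ∈ t, q k * (1 - q k) * x k = γ' := Finset.sum_congr rfl fun i _ => by ring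
  have hS0 : 0 ≤ S := Finset.sum_nonneg hq
  have hA40 : 0 ≤ A4 := Finset.sum_nonneg fun i hi => by
    have := hq1 i hi
    exact mul_nonneg (by positivity) (by linarith)
  have hz2 : ∑ i ∈ t, q i * (y i - y0 + x i * (1 - q i)) ^ 2 =
      A3 - 2 * y0 * (β + γ') + y0 ^ 2 * S := by
    rw [hA3, hβ, hγ', hS, ← Finset.sum_add_distrib, Finset.mul_sum, Finset.mul_sum,
      ← Finset.sum_sub_distrib, ← Finset.sum_add_distrib]
    exact Finset.sum_congr rfl fun i _ => by ring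
  have hz1 : ∑ i ∈ t, q i * (y i - y0 + x i * (1 - q i)) = β + γ' - y0 * S := by
    rw [hβ, hγ', hS, ← Finset.sum_add_distrib, Finset.mul_sum, ← Finset.sum_sub_distrib]
    exact Finset.sum_congr rfl fun i _ => by ring
  have hCS : (β + γ' - y0 * S) ^ 2 ≤ S * (A3 - 2 * y0 * (β + γ') + y0 ^ 2 * S) := by
    rw [← hz1, ← hz2, hS]
    exact Finset.sum_sq_le_sum_mul_sum_of_sq_eq_mul t hq
      (fun i hi => mul_nonneg (hq i hi) (sq_nonneg _)) fun i _ => by ring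
  have hz3 : 0 ≤ A3 - 2 * y0 * (β + γ') + y0 ^ 2 * S - γ * (β + γ' - y0 * S)
      + γ ^ 2 * S / 4 := by
    have : ∑ i ∈ t, q i * (y i - y0 + x i * (1 - q i) - γ / 2) ^ 2 =
        A3 - 2 * y0 * (β + γ') + y0 ^ 2 * S - γ * (β + γ' - y0 * S) + γ ^ 2 * S / 4 := by
      have h1 : γ ^ 2 * S / 4 = ∑ i ∈ t, γ ^ 2 / 4 * q i := by
        rw [hS, ← Finset.mul_sum]; ring
      rw [← hz2, ← hz1, h1, Finset.mul_sum, ← Finset.sum_sub_distrib, ← Finset.sum_add_distrib]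
      exact Finset.sum_congr rfl fun i _ => by ring
    rw [← this]
    exact Finset.sum_nonneg fun i hi => mul_nonneg (hq i hi) (sq_nonneg _)
  unfold Fc Pc dPc
  rw [hA1, e1, e2]
  have key : 0 ≤ (S * (A3 - 2 * y0 * (β + γ') + y0 ^ 2 * S) - (β + γ' - y0 * S) ^ 2)
      + 2 * w * (A3 - 2 * y0 * (β + γ') + y0 ^ 2 * S - γ * (β + γ' - y0 * S) + γ ^ 2 * S / 4)
      + (γ - γ' - w * γ) ^ 2 + (S * (1 - w / 2) + w * (2 - w)) * γ ^ 2 + (S + 2 * w) * A4 := by
    have h1 := sub_nonneg.2 hCS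
    have h2 : 0 ≤ (S * (1 - w / 2) + w * (2 - w)) * γ ^ 2 :=
      mul_nonneg (add_nonneg (mul_nonneg hS0 (by linarith)) (mul_nonneg hw (by linarith)))
        (sq_nonneg _)
    have h3 : 0 ≤ (S + 2 * w) * A4 := mul_nonneg (by linarith) hA40
    have h4 := mul_nonneg (show 0 ≤ 2 * w by linarith) hz3
    have h5 := sq_nonneg (γ - γ' - w * γ)
    linarith
  generalize (∑ k ∈ t, q k * (1 - q k) * (x k ^ 2 + y k ^ 2 + 2 * (1 - 2 * q k) * x k * y k)) = A2
  nlinarith [key]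

end alg

section der
variable {n : ℕ} {η : Fin n → ℝ} (hη : ∀ k, 0 ≤ η k) {s : ℝ} (hs : 0 ≤ s)
  (t : Finset (Fin n)) (i : Fin n) (x y : Fin n → ℝ) (y0 : ℝ)
include hη hs

lemma scc (k : Fin n) : s * (η k * cc η s k ^ 2) = cc η s k * (1 - cc η s k) := by
  have h := (H327.den_pos hη hs k).ne'
  unfold cc
  field_simp
  ring

lemma stt : s * H327.tt η s = ∑ k, (1 - cc η s k) := by
  unfold H327.tt
  rw [Finset.mul_sum]
  refine Finset.sum_congr rfl fun k _ => ?_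
  have h := (H327.den_pos hη hs k).ne'
  unfold cc
  field_simp
  ring

lemma hasDerivAt_Pc : ∃ D : ℝ,
    HasDerivAt (fun s => Pc t (fun k => 1 - cc η s k) x y (1 - cc η s i) y0) D s ∧
    s * D = dPc t (fun k => 1 - cc η s k) x y (1 - cc η s i) y0 := by
  have hq : ∀ k, HasDerivAt (fun s => 1 - cc η s k) (η k * cc η s k ^ 2) s := fun k => by
    have := (H327.hasDerivAt_cc hη hs k).const_sub 1
    simpa using this
  have hc : ∀ k, HasDerivAt (fun s => 1 - (1 - cc η s k)) (-(η k * cc η s k ^ 2)) s := fun k => by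
    simpa using (hq k).const_sub 1
  have hγ : HasDerivAt (fun s => ∑ k ∈ t, x k * (1 - cc η s k))
      (∑ k ∈ t, x k * (η k * cc η s k ^ 2)) s :=
    HasDerivAt.fun_sum fun k _ => (hq k).const_mul (x k)
  have h1 : HasDerivAt (fun s => ∑ k ∈ t, (1 - cc η s k) *
      (y k ^ 2 + x k ^ 2 + 2 * y k * x k * (1 - (1 - cc η s k))))
      (∑ k ∈ t, ((η k * cc η s k ^ 2) * (y k ^ 2 + x k ^ 2 + 2 * y k * x k * (1 - (1 - cc η s k)))
        + (1 - cc η s k) * (2 * y k * x k * (-(η k * cc η s k ^ 2))))) s :=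
    HasDerivAt.fun_sum fun k _ => (hq k).mul (((hc k).const_mul (2 * y k * x k)).const_add _)
  have h2 : HasDerivAt (fun s => 2 * (1 - cc η s i) * y0 ^ 2)
      (2 * (η i * cc η s i ^ 2) * y0 ^ 2) s := ((hq i).const_mul 2).mul_const _
  have h3 : HasDerivAt (fun s => 2 * (1 - cc η s i) * y0 * ∑ k ∈ t, x k * (1 - cc η s k))
      ((2 * (η i * cc η s i ^ 2) * y0) * (∑ k ∈ t, x k * (1 - cc η s k))
        + 2 * (1 - cc η s i) * y0 * (∑ k ∈ t, x k * (η k * cc η s k ^ 2))) s :=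
    (((hq i).const_mul 2).mul_const _).mul hγ
  have h4 : HasDerivAt (fun s => (∑ k ∈ t, x k * (1 - cc η s k)) ^ 2)
      (2 * (∑ k ∈ t, x k * (1 - cc η s k)) * (∑ k ∈ t, x k * (η k * cc η s k ^ 2))) s := by
    have h := hγ.mul hγ
    refine (h.congr_deriv ?_).congr_of_eventuallyEq ?_
    · ring
    · exact Filter.Eventually.of_forall fun s => sq _
  refine ⟨_, ((h1.add h2).add h3).add h4, ?_⟩
  have e1 : s * ∑ k ∈ t, ((η k * cc η s k ^ 2) *
        (y k ^ 2 + x k ^ 2 + 2 * y k * x k * (1 - (1 - cc η s k)))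
        + (1 - cc η s k) * (2 * y k * x k * (-(η k * cc η s k ^ 2)))) =
      ∑ k ∈ t, (1 - cc η s k) * (1 - (1 - cc η s k)) *
        (x k ^ 2 + y k ^ 2 + 2 * (1 - 2 * (1 - cc η s k)) * x k * y k) := by
    rw [Finset.mul_sum]
    refine Finset.sum_congr rfl fun k _ => ?_
    linear_combination ((y k ^ 2 + x k ^ 2 + 2 * y k * x k * (1 - (1 - cc η s k)))
      - (1 - cc η s k) * (2 * y k * x k)) * scc hη hs k
  have e2 : s * ∑ k ∈ t, x k * (η k * cc η s k ^ 2) =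
      ∑ k ∈ t, x k * ((1 - cc η s k) * (1 - (1 - cc η s k))) := by
    rw [Finset.mul_sum]
    refine Finset.sum_congr rfl fun k _ => ?_
    linear_combination (x k) * scc hη hs k
  have e3 := scc hη hs i
  unfold dPc
  rw [← e1, ← e2]
  generalize (∑ k ∈ t, x k * (η k * cc η s k ^ 2)) = g1
  generalize (∑ k ∈ t, x k * (1 - cc η s k)) = g2
  linear_combination (2 * y0 ^ 2 + 2 * y0 * g2) * e3

end der

/-- **Block CERT.** -/
theorem certBlock (n : ℕ) : CertBlock n := by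
  intro η hη i x y y0
  set t := Finset.univ.erase i with ht
  have hder : ∀ s, 0 ≤ s → ∃ H' : ℝ, HasDerivAt (fun s => H327.Pi' η s * cc η s i *
      Pc t (fun k => 1 - cc η s k) x y (1 - cc η s i) y0) H' s ∧
        s * H' ≤ (∏ k, cc η s k) * cc η s i *
          Fc t (fun k => 1 - cc η s k) x y (1 - cc η s i) y0 := by
    intro s hs
    obtain ⟨D, hD, hD'⟩ := hasDerivAt_Pc hη hs t i x y y0
    refine ⟨_, (((H327.hasDerivAt_Pi hη hs).mul (H327.hasDerivAt_cc hη hs i)).mul hD), ?_⟩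
    have h1 : 0 ≤ H327.Pi' η s * cc η s i :=
      mul_nonneg (H327.Pi_nonneg hη hs) (H327.cc_pos hη hs i).le
    have hq : ∀ k, 0 ≤ 1 - cc η s k := fun k => sub_nonneg.2 (H327.cc_le_one hη hs k)
    have hq1 : ∀ k, 1 - cc η s k ≤ 1 := fun k => by linarith [H327.cc_pos hη hs k]
    have h2 := mul_le_mul_of_nonneg_left
      (cert_alg t (fun k => 1 - cc η s k) x y (1 - cc η s i) y0 (fun k _ => hq k)
        (fun k _ => hq1 k) (hq i) (hq1 i)) h1
    have h3 := stt hη hs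
    rw [← Finset.sum_erase_add _ _ (Finset.mem_univ i), ← ht] at h3
    have h4 := scc hη hs i
    rw [← hD'] at h2
    refine le_trans (le_of_eq ?_) h2
    change s * ((-(H327.Pi' η s * H327.tt η s) * cc η s i
      + H327.Pi' η s * -(η i * cc η s i ^ 2)) *
        Pc t (fun k => 1 - cc η s k) x y (1 - cc η s i) y0 + H327.Pi' η s * cc η s i * D) = _
    generalize Pc t (fun k => 1 - cc η s k) x y (1 - cc η s i) y0 = P
    generalize (∑ k ∈ t, (1 - cc η s k)) = S at h3 ⊢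
    linear_combination (-(H327.Pi' η s) * cc η s i * P) * h3 - (H327.Pi' η s * P) * h4
  refine ⟨_, fun s hs => (hder s hs).choose_spec.1.continuousAt, ?_, ?_,
    fun s hs => hder s hs.le⟩
  · have h0 : ∀ k, cc η 0 k = 1 := fun k => by simp [cc]
    simp [Pc, h0]
  · intro s hs
    refine mul_nonneg (mul_nonneg (H327.Pi_nonneg hη hs) (H327.cc_pos hη hs i).le) ?_
    exact Pc_nonneg t _ x y _ y0 (fun k _ => sub_nonneg.2 (H327.cc_le_one hη hs k))
      (fun k _ => by linarith [H327.cc_pos hη hs k]) (sub_nonneg.2 (H327.cc_le_one hη hs i))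
      (by linarith [H327.cc_pos hη hs i])

end Vale.Agent.P272.K.QN.H553
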