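import Vale.Agent.P272.K.QN.Defs

/-! Block PW, part a: the quadratic form `cN` in a diagonal frame. -/

open scoped ComplexConjugate
open Matrix

set_option linter.all false

noncomputable section

namespace Vale.Agent.P272.K.QN.H553

open Vale.Agent.P272.K.QN

variable {n : ℕ}

/-- `T_a = Σ_m c_m N_{a m m}` -/
def TT (c : Fin n → ℝ) (N : Fin n → Matrix (Fin n) (Fin n) ℂ) (a : Fin n) : ℂ :=
  ∑ m, (c m : ℂ) * N a m m

/-- `W_a = Σ_m c_m N_{m a m}` -/
def WW (c : Fin n → ℝ) (N : Fin n → Matrix (Fin n) (Fin n) ℂ) (a : Fin n) : ℂ :=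
  ∑ m, (c m : ℂ) * N m a m

/-- a real diagonal matrix -/
abbrev dg (c : Fin n → ℝ) : Matrix (Fin n) (Fin n) ℂ := Matrix.diagonal fun k => ((c k : ℝ) : ℂ)

lemma dg_self (c : Fin n → ℝ) (k : Fin n) : dg c k k = c k := Matrix.diagonal_apply_eq _ _

lemma dg_ne (c : Fin n → ℝ) {l k : Fin n} (h : l ≠ k) : dg c l k = 0 :=
  Matrix.diagonal_apply_ne _ h

section entries
variable (c b : Fin n → ℝ) (M L : Matrix (Fin n) (Fin n) ℂ) (l k : Fin n)

lemma e_trace : (dg c * M).trace = ∑ m, (c m : ℂ) * M m m := by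
  simp [Matrix.trace, Matrix.diagonal_mul]

lemma e_trace_star : (dg c * Lᴴ).trace = conj (∑ m, (c m : ℂ) * L m m) := by
  simp [Matrix.trace, Matrix.diagonal_mul, map_sum]

lemma e1 : (dg c * M * dg b) l k = c l * M l k * b k := by
  rw [Matrix.mul_diagonal, Matrix.diagonal_mul]

lemma e2 : (dg c * Lᴴ * dg b) l k = c l * conj (L k l) * b k := by
  rw [Matrix.mul_diagonal, Matrix.diagonal_mul, Matrix.conjTranspose_apply, starRingEnd_apply]

lemma e3 : (dg c * Lᴴ * dg b * M).trace = ∑ i, ∑ j, c i * conj (L j i) * b j * M j i := by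
  simp only [Matrix.trace, Matrix.diag_apply]
  refine Finset.sum_congr rfl fun i _ => ?_
  rw [Matrix.mul_apply]
  exact Finset.sum_congr rfl fun j _ => by rw [e2]

lemma e4 (d : Fin n → ℝ) : (dg c * Lᴴ * dg b * M * dg d) l k =
    ∑ j, c l * conj (L j l) * b j * M j k * d k := by
  rw [Matrix.mul_diagonal, Matrix.mul_apply, Finset.sum_mul]
  exact Finset.sum_congr rfl fun j _ => by rw [e2]

lemma e5 (d : Fin n → ℝ) : (dg c * M * dg b * Lᴴ * dg d) l k =
    ∑ j, c l * M l j * b j * conj (L k j) * d k := by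
  rw [Matrix.mul_diagonal, Matrix.mul_apply, Finset.sum_mul]
  exact Finset.sum_congr rfl fun j _ => by
    rw [e1, Matrix.conjTranspose_apply, starRingEnd_apply]

end entries

lemma comb (s : ℂ) (f1 f2 f3 f4 f5 f6 f7 f8 f9 : Fin n → Fin n → ℂ) :
    ∑ k, ∑ l, (-s * (f1 k l + f2 k l + f3 k l + f4 k l + f5 k l)
      + 2 * s * (-f6 k l - f7 k l + f8 k l + f9 k l)) =
    -s * (∑ k, ∑ l, f1 k l + ∑ k, ∑ l, f2 k l + ∑ k, ∑ l, f3 k l + ∑ k, ∑ l, f4 k l
      + ∑ k, ∑ l, f5 k l) + 2 * s * (-(∑ k, ∑ l, f6 k l) - ∑ k, ∑ l, f7 k l + ∑ k, ∑ l, f8 k l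
      + ∑ k, ∑ l, f9 k l) := by
  simp only [Finset.sum_add_distrib, Finset.sum_sub_distrib, ← Finset.mul_sum,
    Finset.sum_neg_distrib]

theorem cN_diag (s : ℝ) (c b : Fin n → ℝ) (N : Fin n → Matrix (Fin n) (Fin n) ℂ) :
    cN s (dg c) (dg b) N =
      -(s : ℂ) * ((∑ a, (c a : ℂ) * (conj (TT c N a) * TT c N a + conj (TT c N a) * WW c N a
          + TT c N a * conj (WW c N a) + conj (WW c N a) * WW c N a))
        + ∑ k, ∑ i, ∑ j, (c k : ℂ) * c i * c j * (conj (N k i j) * N k i j)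
        + ∑ k, ∑ i, ∑ j, (c k : ℂ) * c i * c j * (N k i j * conj (N i k j)))
      + 2 * (s : ℂ) * ((∑ a, (-((c a : ℂ) * (conj (TT c N a) * WW b N a))
          + (b a : ℂ) * (TT c N a * conj (WW c N a))
          + (b a : ℂ) * (conj (WW c N a) * WW c N a)))
        - ∑ k, ∑ i, ∑ j, (c k : ℂ) * c i * b j * (N k i j * conj (N i k j))) := by
  unfold cN
  simp only [e3, e4, e5]
  simp only [e_trace_star, e2]
  simp only [e_trace, e1]
  rw [comb]
  have T : ∀ a, ∑ m, (c m : ℂ) * N a m m = TT c N a := fun a => rfl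
  simp only [T]
  -- term 1
  have h1 : ∑ k, ∑ l, conj (TT c N l) * (dg c l k * TT c N k + c l * N k l k * c k) =
      ∑ a, (c a : ℂ) * (conj (TT c N a) * TT c N a) + ∑ a, (c a : ℂ) * (conj (TT c N a) * WW c N a) := by
    simp only [mul_add, Finset.sum_add_distrib]
    congr 1
    · refine Finset.sum_congr rfl fun k _ => ?_
      rw [Finset.sum_eq_single k]
      · rw [dg_self]; ring
      · intro l _ hl; rw [dg_ne _ hl]; ring
      · simp
    · rw [Finset.sum_comm]
      refine Finset.sum_congr rfl fun l _ => ?_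
      rw [WW, Finset.mul_sum, Finset.mul_sum]
      exact Finset.sum_congr rfl fun k _ => by ring
  have h2 : ∑ k, ∑ l, (c l : ℂ) * conj (N l k l) * c k * TT c N k =
      ∑ a, (c a : ℂ) * (TT c N a * conj (WW c N a)) := by
    refine Finset.sum_congr rfl fun k _ => ?_
    rw [WW, map_sum, Finset.mul_sum, Finset.mul_sum]
    exact Finset.sum_congr rfl fun l _ => by rw [map_mul, Complex.conj_ofReal]; ring
  have h3 : ∑ k, ∑ l, dg c l k * ∑ i, ∑ j, (c i : ℂ) * conj (N l j i) * c j * N k j i =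
      ∑ k, ∑ i, ∑ j, (c k : ℂ) * c i * c j * (conj (N k i j) * N k i j) := by
    refine Finset.sum_congr rfl fun k _ => ?_
    rw [Finset.sum_eq_single k]
    · rw [dg_self, Finset.sum_comm, Finset.mul_sum]
      refine Finset.sum_congr rfl fun i _ => ?_
      rw [Finset.mul_sum]
      exact Finset.sum_congr rfl fun j _ => by ring
    · intro l _ hl; rw [dg_ne _ hl]; ring
    · simp
  have h4 : ∀ d : Fin n → ℝ, ∑ k, ∑ l, ∑ j, (c l : ℂ) * conj (N l j l) * d j * N k j k * c k =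
      ∑ a, (d a : ℂ) * (conj (WW c N a) * WW c N a) := by
    intro d
    calc ∑ k, ∑ l, ∑ j, (c l : ℂ) * conj (N l j l) * d j * N k j k * c k
        = ∑ k, ∑ j, ∑ l, (c l : ℂ) * conj (N l j l) * d j * N k j k * c k :=
          Finset.sum_congr rfl fun k _ => Finset.sum_comm
      _ = ∑ j, ∑ k, ∑ l, (c l : ℂ) * conj (N l j l) * d j * N k j k * c k := Finset.sum_comm
      _ = _ := by
          refine Finset.sum_congr rfl fun j _ => ?_
          rw [WW, map_sum, Finset.sum_mul_sum, Finset.sum_comm, Finset.mul_sum]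
          refine Finset.sum_congr rfl fun l _ => ?_
          rw [Finset.mul_sum]
          exact Finset.sum_congr rfl fun k _ => by rw [map_mul, Complex.conj_ofReal]; ring
  have h5 : ∀ d : Fin n → ℝ, ∑ k, ∑ l, ∑ j, (c l : ℂ) * N k l j * d j * conj (N l k j) * c k =
      ∑ k, ∑ i, ∑ j, (c k : ℂ) * c i * d j * (N k i j * conj (N i k j)) := by
    intro d
    refine Finset.sum_congr rfl fun k _ => Finset.sum_congr rfl fun l _ =>
      Finset.sum_congr rfl fun j _ => by ring
  have h6 : ∑ k, ∑ l, conj (TT c N l) * (c l * N k l k * b k) =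
      ∑ a, (c a : ℂ) * (conj (TT c N a) * WW b N a) := by
    rw [Finset.sum_comm]
    refine Finset.sum_congr rfl fun l _ => ?_
    rw [WW, Finset.mul_sum, Finset.mul_sum]
    exact Finset.sum_congr rfl fun k _ => by ring
  have h7 : ∑ k, ∑ l, TT c N k * (c l * conj (N l k l) * b k) =
      ∑ a, (b a : ℂ) * (TT c N a * conj (WW c N a)) := by
    refine Finset.sum_congr rfl fun k _ => ?_
    rw [WW, map_sum, Finset.mul_sum, Finset.mul_sum]
    exact Finset.sum_congr rfl fun l _ => by rw [map_mul, Complex.conj_ofReal]; ring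
  rw [h1, h2, h3, h4 c, h4 b, h5 c, h5 b, h6, h7]
  simp only [mul_add, Finset.sum_add_distrib, Finset.sum_neg_distrib]
  ring

end Vale.Agent.P272.K.QN.H553
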