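import Vale.Agent.P272.K.QN.H553.Red

/-! Block PW from the real certificate. -/

open scoped ComplexConjugate
open Matrix MeasureTheory Set

set_option linter.all false

noncomputable section

namespace Vale.Agent.P272.K.QN.H553

open Vale.Agent.P272.K.QN

variable {n : ℕ} {η : Fin n → ℝ} {s : ℝ} {N : Fin n → Matrix (Fin n) (Fin n) ℂ}

lemma sum_ff (hη : ∀ k, 0 ≤ η k) (hs : 0 ≤ s) (hN : ∀ k i j, η j = 0 → N k i j = 0) :
    ∑ k, ∑ i, ∑ j, ff η s N k i j =
      (∑ k, ∑ i, ∑ j, cc η s k * cc η s i * (η j)⁻¹ * (‖N k i j + N i k j‖ ^ 2 / 2))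
      - s * (∑ k, ∑ i, ∑ j, cc η s k * cc η s i * cc η s j * rp (N k i j) (N k i j))
      - s * (∑ k, ∑ i, ∑ j, cc η s k * cc η s i * cc η s j * rp (N k i j) (N i k j))
      - 2 * s * (∑ k, ∑ i, ∑ j, cc η s k * cc η s i * cc η s j ^ 2 * rp (N k i j) (N i k j)) := by
  have h1 : ∑ k, ∑ i, ∑ j, cc η s k * cc η s i * cc η s j * rp (N k i j) (N k i j) =
      ∑ k, ∑ i, ∑ j, cc η s k * cc η s i * cc η s j * ((rp (N k i j) (N k i j)
          + rp (N i k j) (N i k j)) / 2) := by
    have h2 : ∑ k, ∑ i, ∑ j, cc η s k * cc η s i * cc η s j * rp (N k i j) (N k i j) =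
        ∑ k, ∑ i, ∑ j, cc η s k * cc η s i * cc η s j * rp (N i k j) (N i k j) := by
      rw [Finset.sum_comm]
      exact Finset.sum_congr rfl fun k _ => Finset.sum_congr rfl fun i _ =>
        Finset.sum_congr rfl fun j _ => by ring
    have h3 : ∑ k, ∑ i, ∑ j, cc η s k * cc η s i * cc η s j * ((rp (N k i j) (N k i j)
          + rp (N i k j) (N i k j)) / 2) =
        (∑ k, ∑ i, ∑ j, cc η s k * cc η s i * cc η s j * rp (N k i j) (N k i j)
        + ∑ k, ∑ i, ∑ j, cc η s k * cc η s i * cc η s j * rp (N i k j) (N i k j)) / 2 := by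
      simp only [← Finset.sum_add_distrib, Finset.sum_div]
      exact Finset.sum_congr rfl fun k _ => Finset.sum_congr rfl fun i _ =>
        Finset.sum_congr rfl fun j _ => by ring
    rw [h3, ← h2]; ring
  rw [h1]
  simp only [Finset.mul_sum, ← Finset.sum_sub_distrib]
  exact Finset.sum_congr rfl fun k _ => Finset.sum_congr rfl fun i _ =>
    Finset.sum_congr rfl fun j _ => ff_eq hη hs hN k i j

theorem integrand_ge (hη : ∀ k, 0 ≤ η k) (hs : 0 ≤ s) (hN : ∀ k i j, η j = 0 → N k i j = 0) :
    ∑ a, (Rr η s a (fun m => (uu η N a m).re) (fun m => (vv η N a m).re)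
        + Rr η s a (fun m => (uu η N a m).im) (fun m => (vv η N a m).im)) ≤
      (∑ k, ∑ i, ∑ j, cc η s k * cc η s i * (η j)⁻¹ * (‖N k i j + N i k j‖ ^ 2 / 2))
        + (cN s (dg (cc η s)) (dg fun k => cc η s k ^ 2) N).re := by
  rw [re_cN, Finset.sum_congr rfl fun a _ => (block_eq hη hs hN a).symm, Finset.sum_add_distrib]
  have h1 := row_col3 (F := ff η s N) (ff_nonneg hη hs) ff_symm
  rw [sum_ff hη hs hN] at h1
  have h2 : ∑ a, (-s * (cc η s a * (rp (TT (cc η s) N a) (TT (cc η s) N a)
          + 2 * rp (TT (cc η s) N a) (WW (cc η s) N a)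
          + rp (WW (cc η s) N a) (WW (cc η s) N a)))
        + 2 * s * (-(cc η s a * rp (TT (cc η s) N a) (WW (fun k => cc η s k ^ 2) N a))
          + cc η s a ^ 2 * rp (TT (cc η s) N a) (WW (cc η s) N a)
          + cc η s a ^ 2 * rp (WW (cc η s) N a) (WW (cc η s) N a))) =
      -s * (∑ a, cc η s a * (rp (TT (cc η s) N a) (TT (cc η s) N a)
          + 2 * rp (TT (cc η s) N a) (WW (cc η s) N a)
          + rp (WW (cc η s) N a) (WW (cc η s) N a)))
        + 2 * s * ∑ a, (-(cc η s a * rp (TT (cc η s) N a) (WW (fun k => cc η s k ^ 2) N a))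
          + cc η s a ^ 2 * rp (TT (cc η s) N a) (WW (cc η s) N a)
          + cc η s a ^ 2 * rp (WW (cc η s) N a) (WW (cc η s) N a)) := by
    rw [Finset.sum_add_distrib, ← Finset.mul_sum, ← Finset.mul_sum]
  rw [h2]
  linarith

lemma continuousOn_cc (hη : ∀ k, 0 ≤ η k) (S : ℝ) (k : Fin n) :
    ContinuousOn (fun s => cc η s k) (Icc 0 S) := by
  unfold cc
  refine ContinuousOn.inv₀ (by fun_prop) fun s hs => (cc_den hη hs.1 k).ne'

lemma continuousOn_Rr (hη : ∀ k, 0 ≤ η k) (S : ℝ) (a : Fin n) (u v : Fin n → ℝ) :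
    ContinuousOn (fun s => Rr η s a u v) (Icc 0 S) := by
  have h := continuousOn_cc hη S
  unfold Rr
  fun_prop

lemma continuousOn_rp {f g : ℝ → ℂ} {A : Set ℝ} (hf : ContinuousOn f A) (hg : ContinuousOn g A) :
    ContinuousOn (fun s => rp (f s) (g s)) A := by
  unfold rp
  exact ((Complex.continuous_re.comp_continuousOn hf).mul
    (Complex.continuous_re.comp_continuousOn hg)).add
    ((Complex.continuous_im.comp_continuousOn hf).mul (Complex.continuous_im.comp_continuousOn hg))

section cont
variable (hη : ∀ k, 0 ≤ η k) (S : ℝ) (N)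
include hη

lemma cont_TT (a : Fin n) : ContinuousOn (fun s => TT (cc η s) N a) (Icc 0 S) := by
  have hc := continuousOn_cc hη S
  unfold TT
  refine continuousOn_finset_sum _ fun m _ => ?_
  exact (Complex.continuous_ofReal.comp_continuousOn (hc m)).mul continuousOn_const

lemma cont_WW (a : Fin n) : ContinuousOn (fun s => WW (cc η s) N a) (Icc 0 S) := by
  have hc := continuousOn_cc hη S
  unfold WW
  refine continuousOn_finset_sum _ fun m _ => ?_
  exact (Complex.continuous_ofReal.comp_continuousOn (hc m)).mul continuousOn_const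

lemma cont_WW2 (a : Fin n) :
    ContinuousOn (fun s => WW (fun k => cc η s k ^ 2) N a) (Icc 0 S) := by
  have hc := continuousOn_cc hη S
  unfold WW
  refine continuousOn_finset_sum _ fun m _ => ?_
  exact (Complex.continuous_ofReal.comp_continuousOn ((hc m).pow 2)).mul continuousOn_const

lemma cont_sum3 (F : Fin n → Fin n → Fin n → ℝ) :
    ContinuousOn (fun s => ∑ k, ∑ i, ∑ j, cc η s k * cc η s i * cc η s j * F k i j)
      (Icc 0 S) := by
  have hc := continuousOn_cc hη S
  exact continuousOn_finset_sum _ fun k _ => continuousOn_finset_sum _ fun i _ =>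
    continuousOn_finset_sum _ fun j _ => (((hc k).mul (hc i)).mul (hc j)).mul continuousOn_const

lemma cont_sum3' (F : Fin n → Fin n → Fin n → ℝ) :
    ContinuousOn (fun s => ∑ k, ∑ i, ∑ j, cc η s k * cc η s i * cc η s j ^ 2 * F k i j)
      (Icc 0 S) := by
  have hc := continuousOn_cc hη S
  exact continuousOn_finset_sum _ fun k _ => continuousOn_finset_sum _ fun i _ =>
    continuousOn_finset_sum _ fun j _ =>
      (((hc k).mul (hc i)).mul ((hc j).pow 2)).mul continuousOn_const

lemma cont_cN : ContinuousOn (fun s => (cN s (dg (cc η s)) (dg fun k => cc η s k ^ 2) N).re)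
    (Icc 0 S) := by
  have hc := continuousOn_cc hη S
  simp only [re_cN]
  have q1 := fun a => continuousOn_rp (cont_TT N hη S a) (cont_TT N hη S a)
  have q2 := fun a => continuousOn_rp (cont_TT N hη S a) (cont_WW N hη S a)
  have q3 := fun a => continuousOn_rp (cont_WW N hη S a) (cont_WW N hη S a)
  have q4 := fun a => continuousOn_rp (cont_TT N hη S a) (cont_WW2 N hη S a)
  have r3 : ContinuousOn (fun s => ∑ a, cc η s a * (rp (TT (cc η s) N a) (TT (cc η s) N a)
              + 2 * rp (TT (cc η s) N a) (WW (cc η s) N a)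
              + rp (WW (cc η s) N a) (WW (cc η s) N a))) (Icc 0 S) :=
    continuousOn_finset_sum _ fun a _ =>
      (hc a).mul (((q1 a).add (continuousOn_const.mul (q2 a))).add (q3 a))
  have r6 : ContinuousOn (fun s => ∑ a, (-(cc η s a * rp (TT (cc η s) N a)
      (WW (fun k => cc η s k ^ 2) N a))
              + cc η s a ^ 2 * rp (TT (cc η s) N a) (WW (cc η s) N a)
              + cc η s a ^ 2 * rp (WW (cc η s) N a) (WW (cc η s) N a))) (Icc 0 S) :=
    continuousOn_finset_sum _ fun a _ =>
      ((((hc a).mul (q4 a)).neg).add (((hc a).pow 2).mul (q2 a))).add (((hc a).pow 2).mul (q3 a))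
  exact ((continuousOn_id.neg).mul ((r3.add (cont_sum3 hη S _)).add (cont_sum3 hη S _))).add
      ((continuousOn_const.mul continuousOn_id).mul (r6.sub (cont_sum3' hη S _)))

end cont

theorem pwBlock_of (hC : CertStmt n) : PWBlock n := by
  intro η hη N hN S hS
  have hN' : ∀ k i j, η j = 0 → N k i j = 0 := hN
  have hc := continuousOn_cc hη S
  have hR : ∀ (a : Fin n) (u v : Fin n → ℝ), IntervalIntegrable
      (fun s => (∏ k, cc η s k) * Rr η s a u v) volume 0 S := fun a u v => by
    refine ContinuousOn.intervalIntegrable ?_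
    rw [uIcc_of_le hS]
    have := continuousOn_Rr hη S a u v
    fun_prop
  have h1 : 0 ≤ ∫ s in (0 : ℝ)..S, (∏ k, cc η s k) *
      ∑ a, (Rr η s a (fun m => (uu η N a m).re) (fun m => (vv η N a m).re)
        + Rr η s a (fun m => (uu η N a m).im) (fun m => (vv η N a m).im)) := by
    have e : (fun s => (∏ k, cc η s k) *
      ∑ a, (Rr η s a (fun m => (uu η N a m).re) (fun m => (vv η N a m).re)
        + Rr η s a (fun m => (uu η N a m).im) (fun m => (vv η N a m).im))) =
      fun s => ∑ a, ((∏ k, cc η s k) * Rr η s a (fun m => (uu η N a m).re)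
          (fun m => (vv η N a m).re)
        + (∏ k, cc η s k) * Rr η s a (fun m => (uu η N a m).im) (fun m => (vv η N a m).im)) := by
      funext s
      rw [Finset.mul_sum]
      exact Finset.sum_congr rfl fun a _ => by ring
    rw [e, intervalIntegral.integral_finsetSum fun a _ => (hR a _ _).add (hR a _ _)]
    refine Finset.sum_nonneg fun a _ => ?_
    rw [intervalIntegral.integral_add (hR a _ _) (hR a _ _)]
    have := hC η hη a (fun m => (uu η N a m).re) (fun m => (vv η N a m).re) rfl S hS
    have := hC η hη a (fun m => (uu η N a m).im) (fun m => (vv η N a m).im) rfl S hS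
    positivity
  refine h1.trans ?_
  refine intervalIntegral.integral_mono_on hS ?_ ?_ fun s hs => ?_
  · refine ContinuousOn.intervalIntegrable ?_
    rw [uIcc_of_le hS]
    have := fun a u v => continuousOn_Rr hη S a u v
    fun_prop
  · refine ContinuousOn.intervalIntegrable ?_
    rw [uIcc_of_le hS]
    have r1 : ContinuousOn (fun s => ∏ k, cc η s k) (Icc 0 S) :=
      continuousOn_finset_prod _ fun k _ => hc k
    have r2 : ContinuousOn (fun s => ∑ k, ∑ i, ∑ j, cc η s k * cc η s i * (η j)⁻¹ *
      (‖N k i j + N i k j‖ ^ 2 / 2)) (Icc 0 S) :=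
      continuousOn_finset_sum _ fun k _ => continuousOn_finset_sum _ fun i _ =>
        continuousOn_finset_sum _ fun j _ =>
          (((hc k).mul (hc i)).mul continuousOn_const).mul continuousOn_const
    exact r1.mul (r2.add (cont_cN N hη S))
  · refine mul_le_mul_of_nonneg_left (integrand_ge hη hs.1 hN') ?_
    exact Finset.prod_nonneg fun k _ => (cc_pos hη hs.1 k).le

end Vale.Agent.P272.K.QN.H553
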