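import Vale.Agent.P272.K.QN.Defs

/-! Block PW: the real quadratic form of one index block. -/

open scoped ComplexConjugate
open Matrix

set_option linter.all false

noncomputable section

namespace Vale.Agent.P272.K.QN.H553

open Vale.Agent.P272.K.QN

variable {n : ℕ}

/-- The block with common index `a` of the integrand of `PWBlock` (without the weight `∏ c_k`), for
real vectors `u_m = D_{amm}/η_m`, `v_m = D_{mam}/η_m`; `x_m = c_m`, `s * (η_m * c_m) = y_m`. It is
`x_a G / s` in the notation of the certificate. -/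
def Rr (η : Fin n → ℝ) (s : ℝ) (a : Fin n) (u v : Fin n → ℝ) : ℝ :=
  cc η s a * ((∑ m, ((u m - v m) ^ 2 * (cc η s m * (η m * cc η s m))
      + 4 * (u m * v m) * (cc η s m ^ 2 * (η m * cc η s m))))
    - 2 * u a ^ 2 * (cc η s a ^ 2 * (η a * cc η s a))
    + s * (2 * (∑ m, v m * (η m * cc η s m)) ^ 2 * cc η s a
      + 2 * (∑ m, v m * (η m * cc η s m)) * (∑ m, u m * (η m * cc η s m)) * cc η s a
      - 2 * (∑ m, u m * (η m * cc η s m)) * (∑ m, v m * (cc η s m * (η m * cc η s m)))
      - ((∑ m, u m * (η m * cc η s m)) + ∑ m, v m * (η m * cc η s m)) ^ 2))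

/-- what is left: positivity of the integral of one block -/
def CertStmt (n : ℕ) : Prop :=
  ∀ (η : Fin n → ℝ) (_ : ∀ k, 0 ≤ η k) (a : Fin n) (u v : Fin n → ℝ) (_ : u a = v a) (S : ℝ)
    (_ : 0 ≤ S), 0 ≤ ∫ s in (0 : ℝ)..S, (∏ k, cc η s k) * Rr η s a u v

end Vale.Agent.P272.K.QN.H553
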