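import Vale.Agent.P272.K.QN.H553.Diag
import Vale.Agent.P272.K.QN.H553.RDef
import Mathlib.MeasureTheory.Integral.IntervalIntegral.Basic

/-! Block PW: reduction to real blocks. -/

open scoped ComplexConjugate
open Matrix

set_option linter.all false

noncomputable section

namespace Vale.Agent.P272.K.QN.H553

open Vale.Agent.P272.K.QN

variable {n : ℕ}

/-- the real inner product of complex numbers -/
def rp (z w : ℂ) : ℝ := z.re * w.re + z.im * w.im

lemma rp_add_sq (p q : ℂ) : ‖p + q‖ ^ 2 = rp p p + 2 * rp p q + rp q q := by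
  rw [← Complex.normSq_eq_norm_sq]; simp [Complex.normSq_apply, rp]; ring

lemma rp_sub_sq (p q : ℂ) : ‖p - q‖ ^ 2 = rp p p - 2 * rp p q + rp q q := by
  rw [← Complex.normSq_eq_norm_sq]; simp [Complex.normSq_apply, rp]; ring

section re
variable (s : ℝ) (c b : Fin n → ℝ) (N : Fin n → Matrix (Fin n) (Fin n) ℂ)

/-- real part of `cN` in a diagonal frame -/
theorem re_cN : (cN s (dg c) (dg b) N).re =
    -s * ((∑ a, c a * (rp (TT c N a) (TT c N a) + 2 * rp (TT c N a) (WW c N a)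
          + rp (WW c N a) (WW c N a)))
        + ∑ k, ∑ i, ∑ j, c k * c i * c j * rp (N k i j) (N k i j)
        + ∑ k, ∑ i, ∑ j, c k * c i * c j * rp (N k i j) (N i k j))
      + 2 * s * ((∑ a, (-(c a * rp (TT c N a) (WW b N a))
          + b a * rp (TT c N a) (WW c N a) + b a * rp (WW c N a) (WW c N a)))
        - ∑ k, ∑ i, ∑ j, c k * c i * b j * rp (N k i j) (N i k j)) := by
  rw [cN_diag]
  have h0 : ∀ z : ℂ, ∀ r : ℝ, ((r : ℂ) * z).re = r * z.re := fun z r => by simp
  have e1 : ∀ z : ℂ, (-(s : ℂ) * z).re = -s * z.re := fun z => by simp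
  have e2 : ∀ z : ℂ, (2 * (s : ℂ) * z).re = 2 * s * z.re := fun z => by
    have : (2 * (s : ℂ)) = ((2 * s : ℝ) : ℂ) := by push_cast; ring
    rw [this, h0]
  have e3 : ∀ x y w v : ℝ, ∀ z : ℂ, ((x : ℂ) * y * w * z).re = x * y * w * z.re := by
    intro x y w v z
    have : ((x : ℂ) * y * w) = ((x * y * w : ℝ) : ℂ) := by push_cast; ring
    rw [this, h0]
  rw [Complex.add_re, e1, e2, Complex.add_re, Complex.add_re, Complex.sub_re]
  simp only [Complex.re_sum]
  congr 1
  · congr 1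
    congr 1
    · congr 1
      · refine Finset.sum_congr rfl fun a _ => ?_
        rw [h0]; congr 1; simp [rp]; ring
      · refine Finset.sum_congr rfl fun k _ => Finset.sum_congr rfl fun i _ =>
          Finset.sum_congr rfl fun j _ => ?_
        rw [e3 _ _ _ 0]; congr 1; simp [rp]
    · refine Finset.sum_congr rfl fun k _ => Finset.sum_congr rfl fun i _ =>
          Finset.sum_congr rfl fun j _ => ?_
      rw [e3 _ _ _ 0]; congr 1; simp [rp]
  · congr 1
    congr 1
    · refine Finset.sum_congr rfl fun a _ => ?_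
      rw [Complex.add_re, Complex.add_re, Complex.neg_re, h0, h0, h0]; simp [rp]
    · refine Finset.sum_congr rfl fun k _ => Finset.sum_congr rfl fun i _ =>
          Finset.sum_congr rfl fun j _ => ?_
      rw [e3 _ _ _ 0]; congr 1; simp [rp]

end re

section comb
/-- row plus column of a nonnegative matrix -/
lemma row_col {F : Fin n → Fin n → ℝ} (hF : ∀ k i, 0 ≤ F k i) (j : Fin n) :
    ∑ i, F j i + ∑ k, F k j - F j j ≤ ∑ k, ∑ i, F k i := by
  rw [← Finset.add_sum_erase Finset.univ (fun k => ∑ i, F k i) (Finset.mem_univ j),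
    ← Finset.add_sum_erase Finset.univ (fun k => F k j) (Finset.mem_univ j)]
  have : ∑ k ∈ Finset.univ.erase j, F k j ≤ ∑ k ∈ Finset.univ.erase j, ∑ i, F k i :=
    Finset.sum_le_sum fun k _ => Finset.single_le_sum (fun i _ => hF k i) (Finset.mem_univ j)
  linarith

lemma row_col3 {F : Fin n → Fin n → Fin n → ℝ} (hF : ∀ k i j, 0 ≤ F k i j)
    (hs : ∀ k i j, F k i j = F i k j) :
    ∑ a, (2 * ∑ m, F a m m - F a a a) ≤ ∑ k, ∑ i, ∑ j, F k i j := by
  have h1 : ∑ k, ∑ i, ∑ j, F k i j = ∑ j, ∑ k, ∑ i, F k i j := by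
    rw [show ∑ k, ∑ i, ∑ j, F k i j = ∑ k, ∑ j, ∑ i, F k i j from
      Finset.sum_congr rfl fun k _ => Finset.sum_comm]
    exact Finset.sum_comm
  rw [h1]
  have h2 : ∀ j, ∑ i, F j i j + ∑ k, F k j j - F j j j ≤ ∑ k, ∑ i, F k i j := fun j =>
    row_col (F := fun k i => F k i j) (fun k i => hF k i j) j
  have h3 : ∑ a, (2 * ∑ m, F a m m - F a a a) =
      ∑ j, (∑ i, F j i j + ∑ k, F k j j - F j j j) := by
    simp only [Finset.sum_sub_distrib, Finset.sum_add_distrib, ← Finset.mul_sum]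
    have h4 : ∑ j, ∑ i, F j i j = ∑ a, ∑ m, F a m m := by
      rw [Finset.sum_comm]
      exact Finset.sum_congr rfl fun a _ => Finset.sum_congr rfl fun m _ => hs m a m
    have h5 : ∑ j, ∑ k, F k j j = ∑ a, ∑ m, F a m m := Finset.sum_comm
    rw [h4, h5]; ring
  rw [h3]
  exact Finset.sum_le_sum fun j _ => h2 j

end comb

section cc
variable {η : Fin n → ℝ} (hη : ∀ k, 0 ≤ η k) {s : ℝ} (hs : 0 ≤ s)
include hη hs

lemma cc_den (k : Fin n) : 0 < 1 + s * η k := by
  have := mul_nonneg hs (hη k); linarith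

lemma cc_pos (k : Fin n) : 0 < cc η s k := inv_pos.2 (cc_den hη hs k)

lemma cc_eq (k : Fin n) : s * (η k * cc η s k) = 1 - cc η s k := by
  have h := (cc_den hη hs k).ne'
  unfold cc
  field_simp
  ring

end cc

section blocks
variable (η : Fin n → ℝ) (s : ℝ) (N : Fin n → Matrix (Fin n) (Fin n) ℂ)

def uu (a m : Fin n) : ℂ := N a m m / η m

def vv (a m : Fin n) : ℂ := N m a m / η m

def ff (k i j : Fin n) : ℝ := cc η s k * cc η s i * cc η s j ^ 2 *
  ((η j)⁻¹ * (‖N k i j + N i k j‖ ^ 2 / 2) + s * (‖N k i j - N i k j‖ ^ 2 / 2))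

variable {η s N}

lemma N_uu (hN : ∀ k i j, η j = 0 → N k i j = 0) (a m : Fin n) :
    N a m m = (η m : ℂ) * uu η N a m := by
  unfold uu
  by_cases h : η m = 0
  · rw [hN _ _ _ h, h]; simp
  · have : (η m : ℂ) ≠ 0 := by exact_mod_cast h
    field_simp

lemma N_vv (hN : ∀ k i j, η j = 0 → N k i j = 0) (a m : Fin n) :
    N m a m = (η m : ℂ) * vv η N a m := by
  unfold vv
  by_cases h : η m = 0
  · rw [hN _ _ _ h, h]; simp
  · have : (η m : ℂ) ≠ 0 := by exact_mod_cast h
    field_simp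

lemma uu_self (a : Fin n) : uu η N a a = vv η N a a := rfl

lemma ff_symm (k i j : Fin n) : ff η s N k i j = ff η s N i k j := by
  unfold ff
  rw [add_comm (N k i j), norm_sub_rev (N k i j)]
  ring

lemma ff_nonneg (hη : ∀ k, 0 ≤ η k) (hs : 0 ≤ s) (k i j : Fin n) : 0 ≤ ff η s N k i j := by
  unfold ff
  have h1 := cc_pos hη hs k
  have h2 := cc_pos hη hs i
  have h3 := cc_pos hη hs j
  have h4 := inv_nonneg.2 (hη j)
  positivity

lemma ff_eq (hη : ∀ k, 0 ≤ η k) (hs : 0 ≤ s) (hN : ∀ k i j, η j = 0 → N k i j = 0)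
    (k i j : Fin n) : ff η s N k i j =
      cc η s k * cc η s i * (η j)⁻¹ * (‖N k i j + N i k j‖ ^ 2 / 2)
      - s * (cc η s k * cc η s i * cc η s j * ((rp (N k i j) (N k i j)
          + rp (N i k j) (N i k j)) / 2))
      - s * (cc η s k * cc η s i * cc η s j * rp (N k i j) (N i k j))
      - 2 * s * (cc η s k * cc η s i * cc η s j ^ 2 * rp (N k i j) (N i k j)) := by
  unfold ff
  rw [rp_add_sq, rp_sub_sq]
  by_cases h0 : η j = 0
  · rw [hN k i j h0, hN i k j h0]; simp [rp]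
  · have hr : η j * (η j)⁻¹ = 1 := mul_inv_cancel₀ h0
    have hc := cc_eq hη hs j
    generalize (η j)⁻¹ = r at hr ⊢
    generalize cc η s j = c at hc ⊢
    have h : s * c = (1 - c) * r := by linear_combination r * hc - s * c * hr
    generalize cc η s k * cc η s i = K
    generalize rp (N k i j) (N k i j) = A
    generalize rp (N i k j) (N i k j) = D
    generalize rp (N k i j) (N i k j) = B
    linear_combination (K * (c * (A - 2 * B + D) / 2 + (A + 2 * B + D) / 2 + 2 * c * B)) * h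

lemma TT_eq (c : Fin n → ℝ) (hN : ∀ k i j, η j = 0 → N k i j = 0) (a : Fin n) :
    TT c N a = ∑ m, uu η N a m * ((η m * c m : ℝ) : ℂ) := by
  unfold TT
  refine Finset.sum_congr rfl fun m _ => ?_
  rw [N_uu hN]; push_cast; ring

lemma WW_eq (c : Fin n → ℝ) (hN : ∀ k i j, η j = 0 → N k i j = 0) (a : Fin n) :
    WW c N a = ∑ m, vv η N a m * ((η m * c m : ℝ) : ℂ) := by
  unfold WW
  refine Finset.sum_congr rfl fun m _ => ?_
  rw [N_vv hN]; push_cast; ring

lemma re_sum_mul (f : Fin n → ℂ) (g : Fin n → ℝ) :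
    (∑ m, f m * ((g m : ℝ) : ℂ)).re = ∑ m, (f m).re * g m := by
  rw [Complex.re_sum]; exact Finset.sum_congr rfl fun m _ => by simp

lemma im_sum_mul (f : Fin n → ℂ) (g : Fin n → ℝ) :
    (∑ m, f m * ((g m : ℝ) : ℂ)).im = ∑ m, (f m).im * g m := by
  rw [Complex.im_sum]; exact Finset.sum_congr rfl fun m _ => by simp

lemma ff_amm (hη : ∀ k, 0 ≤ η k) (hs : 0 ≤ s) (hN : ∀ k i j, η j = 0 → N k i j = 0)
    (a m : Fin n) : 2 * ff η s N a m m = cc η s a *
      ((((uu η N a m).re - (vv η N a m).re) ^ 2 * (cc η s m * (η m * cc η s m))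
        + 4 * ((uu η N a m).re * (vv η N a m).re) * (cc η s m ^ 2 * (η m * cc η s m)))
      + (((uu η N a m).im - (vv η N a m).im) ^ 2 * (cc η s m * (η m * cc η s m))
        + 4 * ((uu η N a m).im * (vv η N a m).im) * (cc η s m ^ 2 * (η m * cc η s m)))) := by
  unfold ff
  rw [rp_add_sq, rp_sub_sq, N_uu hN a m, N_vv hN a m]
  have hc := cc_eq hη hs m
  simp only [rp, Complex.mul_re, Complex.mul_im, Complex.ofReal_re, Complex.ofReal_im, zero_mul,
    sub_zero, add_zero]
  have hr : (η m)⁻¹ * (η m) ^ 2 = η m := by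
    by_cases h0 : η m = 0
    · rw [h0]; simp
    · field_simp
  generalize (η m)⁻¹ = r at hr ⊢
  generalize cc η s m = c at hc ⊢
  generalize cc η s a = K
  generalize (uu η N a m).re = u1
  generalize (uu η N a m).im = u2
  generalize (vv η N a m).re = v1
  generalize (vv η N a m).im = v2
  generalize η m = e at hc hr ⊢
  linear_combination (K * c ^ 3 * ((u1 + v1) ^ 2 + (u2 + v2) ^ 2)) * hr
    + (K * c ^ 2 * e * ((u1 - v1) ^ 2 + (u2 - v2) ^ 2)) * hc

lemma ff_aaa (hη : ∀ k, 0 ≤ η k) (hs : 0 ≤ s) (hN : ∀ k i j, η j = 0 → N k i j = 0)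
    (a : Fin n) : ff η s N a a a = cc η s a *
      (2 * (uu η N a a).re ^ 2 * (cc η s a ^ 2 * (η a * cc η s a))
        + 2 * (uu η N a a).im ^ 2 * (cc η s a ^ 2 * (η a * cc η s a))) := by
  have h := ff_amm hη hs hN a a
  rw [← uu_self] at h
  linear_combination h / 2

theorem block_eq (hη : ∀ k, 0 ≤ η k) (hs : 0 ≤ s) (hN : ∀ k i j, η j = 0 → N k i j = 0)
    (a : Fin n) :
    2 * ∑ m, ff η s N a m m - ff η s N a a a
      + (-s * (cc η s a * (rp (TT (cc η s) N a) (TT (cc η s) N a)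
          + 2 * rp (TT (cc η s) N a) (WW (cc η s) N a)
          + rp (WW (cc η s) N a) (WW (cc η s) N a)))
        + 2 * s * (-(cc η s a * rp (TT (cc η s) N a) (WW (fun k => cc η s k ^ 2) N a))
          + cc η s a ^ 2 * rp (TT (cc η s) N a) (WW (cc η s) N a)
          + cc η s a ^ 2 * rp (WW (cc η s) N a) (WW (cc η s) N a))) =
      Rr η s a (fun m => (uu η N a m).re) (fun m => (vv η N a m).re)
        + Rr η s a (fun m => (uu η N a m).im) (fun m => (vv η N a m).im) := by
  rw [Finset.mul_sum, Finset.sum_congr rfl fun m _ => ff_amm hη hs hN a m, ff_aaa hη hs hN,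
    ← Finset.mul_sum, Finset.sum_add_distrib]
  have hW2 : ∀ m, η m * cc η s m ^ 2 = cc η s m * (η m * cc η s m) := fun m => by ring
  simp only [rp, TT_eq (cc η s) hN, WW_eq (cc η s) hN, WW_eq (fun k => cc η s k ^ 2) hN,
    re_sum_mul, im_sum_mul, hW2, Rr]
  ring

end blocks

end Vale.Agent.P272.K.QN.H553
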